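import Vale.Agent.P352G2.Kit
import Vale.Agent.P352X.Hyp

/-!
# P352G: the potential is even, even parts of time ordered products
-/

set_option linter.all false

noncomputable section

namespace Vale.Agent.P352G24

open Vale.Agent.P352 Vale.Agent.P352.GF Vale.Agent.P352.BW Vale.Agent.P352.H246 Vale.Agent.P352.H496
open Vale.Agent.P352.H15 Vale.Agent.P352X Vale.Agent.P352G
open UniformSpace (Completion)

variable {D : Type*} [NormedAddCommGroup D] [InnerProductSpace ℂ D] [GrD D] {Q : Theory D}
  {A : (V → V) → D → D} {T : Ix → Ix → Fld D}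

variable (D) in
/-- the projection on the even vectors -/
def pev : Completion D →L[ℂ] Completion D := (2⁻¹ : ℂ) • (1 + Gm D)

theorem pev_apply (z : Completion D) : pev D z = (2⁻¹ : ℂ) • (z + Gm D z) := rfl

theorem pev_fix {z : Completion D} (h : Gm D z = z) : pev D z = z := by
  rw [pev_apply, h]
  module

/-- the even parts of a family of distributions -/
def evn (w : I2 → I2 → S2 →L[ℂ] Completion D) : I2 → I2 → S2 →L[ℂ] Completion D :=
  fun I J => (pev D).comp (w I J)

variable (R : RepZ Q A)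
include R

theorem pev_even (z : Completion D) : Gm D (pev D z) = pev D z := by
  rw [pev_apply, map_smul, map_add, R.g0.gz, add_comm]

theorem pev_inner {x : Completion D} (hx : Gm D x = x) (z : Completion D) :
    inner ℂ x (pev D z) = inner ℂ x z := by
  rw [pev_apply, inner_smul_right, inner_add_right, ← R.g0.herm, hx]
  ring

theorem pev_inner' {x : Completion D} (hx : Gm D x = x) (z : Completion D) :
    inner ℂ (pev D z) x = inner ℂ z x := by
  rw [← inner_conj_symm, pev_inner R hx, inner_conj_symm]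

theorem pev_ue {s : ℝ} {L : Ix → V} (hs : 0 < s) (hL : IsLor L) (a : V) (z : Completion D) :
    pev D (Ue Q s L a z) = Ue Q s L a (pev D z) := by
  rw [← Ug_apply Q hs hL, ← Ug_apply Q hs hL, pev_apply, pev_apply, R.gUz, map_smul, map_add]

theorem bose_ev {B : Fld D} (hB : Q.bose B) {f : Fn} (hf : IsTest f) {v : D}
    (hv : Gm D v = v) : Gm D (B f v : D) = (B f v : D) := by
  rw [R.ext] at hv ⊢
  have h := R.gr.bose B f v hB hf
  rw [show GrD.G v = v from Completion.coe_injective D hv] at h
  exact congrArg _ h.symm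

theorem bose_vac {B : Fld D} (hB : Q.bose B) {f : Fn} (hf : IsTest f) :
    Gm D (B f Q.vac : D) = (B f Q.vac : D) := bose_ev R hB hf R.gv

theorem tp2_evn (hT : Q.IsStress T) {e : Bool} {w : I2 → I2 → S2 →L[ℂ] Completion D}
    (h : TP2 Q T e w) : TP2 Q T e (evn w) where
  fac I J f g F h1 h2 := by
    show pev D (w I J F) = _
    rw [h.fac I J f g F h1 h2]
    refine pev_fix ?_
    cases e
    · exact bose_ev R (hT.bose _ _) ⟨g, rfl⟩ (bose_vac R (hT.bose _ _) ⟨f, rfl⟩)
    · exact bose_ev R (hT.bose _ _) ⟨f, rfl⟩ (bose_vac R (hT.bose _ _) ⟨g, rfl⟩)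
  swap I J F G h1 := congrArg (pev D) (h.swap I J F G h1)
  ind I J := congrArg (pev D).comp (h.ind I J)
  cov s L a I J F G hs hL h1 := by
    obtain ⟨κ, h2⟩ := h.cov s L a I J F G hs hL h1
    refine ⟨κ, ?_⟩
    show pev D (w I J F) = _
    rw [h2]
    simp only [map_add, map_sum, map_smul, pev_ue R hs hL, pev_fix R.gv]
    rfl

theorem tp_evn (hT : Q.IsStress T) {wp wm : I2 → I2 → S2 →L[ℂ] Completion D}
    {t : I2 → I2 → I2 → S3 →L[ℂ] ℂ} (h : TP Q T wp wm t) : TP Q T (evn wp) (evn wm) t where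
  tp := tp2_evn R hT h.tp
  tm := tp2_evn R hT h.tm
  fac1 I J K f G F h1 h2 := (h.fac1 I J K f G F h1 h2).trans
    (pev_inner R (bose_vac R (hT.bose _ _) (isTest_bar ⟨f, rfl⟩)) _).symm
  fac3 I J K G G' f F h1 h2 h3 := (h.fac3 I J K G G' f F h1 h2 h3).trans
    (pev_inner' R (bose_vac R (hT.bose _ _) ⟨f, rfl⟩) _).symm
  swap1 := h.swap1
  swap2 := h.swap2
  ind := h.ind
  cov := h.cov

theorem tr_even (hT : Q.IsStress T) {f : Fn} (hf : IsTest f) :
    Gm D (GF.tr T f Q.vac : D) = (GF.tr T f Q.vac : D) := by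
  have e : ((GF.tr T f Q.vac : D) : Completion D) =
      ∑ m, (eta m : ℂ) • ((T m m f Q.vac : D) : Completion D) :=
    (map_sum (Completion.toComplL : D →L[ℂ] Completion D) _ _).trans
      (Finset.sum_congr rfl fun m _ => Completion.coe_smul _ _)
  simp only [e, map_sum, map_smul, bose_vac R (hT.bose _ _) hf]

theorem pot_gam (hT : Q.IsStress T) {l : Fn → Completion D} (h : IsPot Q T l) :
    IsPot Q T fun f => Gm D (l f) where
  lin f g c hf hg := by rw [h.lin f g c hf hg, map_add, map_smul]
  cont := (Gm D).continuous.comp h.cont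
  trace f hf := by rw [← map_smul, h.trace f hf, tr_even R hT hf]
  cov s L a f v hs hL hf := by
    rw [← R.g0.herm, ← R.g0.herm, R.ext, R.ext, ← h.cov s L a f _ hs hL hf,
      R.gr.GU s L a v hs hL]

end Vale.Agent.P352G24

end
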