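import Vale.Agent.P352G.Defs
import Vale.Agent.P352X.EH.FSG
import Vale.Agent.P352X.EG.W

/-!
# P352G, row TRF: the hypotheses pass to the re-signed theory
-/

set_option linter.all false

open Filter Topology
open scoped ComplexConjugate

noncomputable section

namespace Vale.Agent.P352G24

open Vale.Agent.P352 Vale.Agent.P352.GF Vale.Agent.P352.BW Vale.Agent.P352.H246 Vale.Agent.P352.H496
open Vale.Agent.P352.H15 Vale.Agent.P352X Vale.Agent.P352G
open Vale.Agent.P352X.EG (sg)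
open UniformSpace (Completion)

variable {D : Type*} [NormedAddCommGroup D] [InnerProductSpace ℂ D] [GrD D] {Q Q' : Theory D}
  {A : (V → V) → D → D}

theorem rs_one (r : Rs Q Q') {s : ℝ} (hs : 0 < s) (a : V) (v : D) :
    Q'.U s GF.one a v = Q.U s GF.one a v := by
  obtain ⟨e, h1, h2⟩ := r.U _ H496.isLor_one
  rw [h2 s a v hs, h1 rfl]
  rfl

theorem rs_ue (r : Rs Q Q') {s : ℝ} (hs : 0 < s) (a : V) :
    Ue Q' s GF.one a = Ue Q s GF.one a := by
  rw [Ue, Ue, show Q'.U s GF.one a = Q.U s GF.one a from funext (rs_one r hs a)]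

theorem rs_om (r : Rs Q Q') : om Q' = om Q := by rw [om, om, r.vac]

theorem rs_symm (g : Gr Q GrD.G) (r : Rs Q Q') : Rs Q' Q where
  vac := r.vac.symm
  fld := r.fld.symm
  bose := r.bose.symm
  U L hL := by
    obtain ⟨e, h1, h2⟩ := r.U L hL
    refine ⟨e, h1, fun s a v hs => ?_⟩
    rw [h2 s a v hs]
    cases e
    · rfl
    · exact (g.inv _).symm

theorem rs_cyc (r : Rs Q Q') (w : D) : P352NA.Cyc Q' w ↔ P352NA.Cyc Q w := by
  simp only [P352NA.Cyc, r.vac, r.fld]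

theorem g_add (g : Gr Q GrD.G) (v w : D) : Gd (v + w) = Gd v + Gd w :=
  ext_inner_right ℂ fun z => by
    rw [g.herm, inner_add_left, inner_add_left, g.herm, g.herm]

theorem g_smul (g : Gr Q GrD.G) (c : ℂ) (v : D) : Gd (c • v) = c • Gd v :=
  ext_inner_right ℂ fun z => by
    rw [g.herm, inner_smul_left, inner_smul_left, g.herm]

/-- the grading as a linear map -/
def gL (g : Gr Q GrD.G) : D →ₗ[ℂ] D := ⟨⟨Gd, g_add g⟩, g_smul g⟩

theorem par_bose (g : Gr Q GrD.G) {B : Fld D} (h : Q.bose B) : Par false B := fun f v hf => by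
  rw [g.bose B f v h hf]
  simp [sg]

/-- covariance laws of fields with a parity pass to the re-signed similitudes -/
theorem cov_cond (g : Gr Q GrD.G) {e ε : Bool} {B : Fld D} (hB : Par e B) {f : Fn} (hf : IsTest f)
    {ι : Type*} (F : Finset ι) (κ : ι → ℂ) (x : D) (y : ι → D) (h : B f x = ∑ i ∈ F, κ i • y i) :
    B f (cond ε (Gd x) x) = ∑ i ∈ F, (sg (e && ε) * κ i) • cond ε (Gd (y i)) (y i) := by
  cases ε
  · simpa [sg] using h
  · have h1 : Gd (B f x) = ∑ i ∈ F, κ i • Gd (y i) := by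
      rw [h]
      exact (map_sum (gL g) _ _).trans (Finset.sum_congr rfl fun i _ => g_smul g _ _)
    simp only [cond_true, Bool.and_true]
    rw [hB f x hf, h1, Finset.smul_sum]
    exact Finset.sum_congr rfl fun i _ => smul_smul _ _ _

theorem cov_two (g : Gr Q GrD.G) (r : Rs Q Q') {T : Ix → Ix → Fld D} {B : Fld D} (hB : Q.bose B)
    {s : ℝ} {L : Ix → V} {a : V} {f k : Fn} {v : D} (hs : 0 < s) (hL : IsLor L) (hf : IsTest f)
    (κ : Ix → Ix → ℂ) (h : B f (Q.U s L a v) = ∑ i, ∑ j, κ i j • Q.U s L a (T i j k v)) :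
    B f (Q'.U s L a v) = ∑ i, ∑ j, κ i j • Q'.U s L a (T i j k v) := by
  obtain ⟨e, -, h2⟩ := r.U L hL
  rw [← Fintype.sum_prod_type'] at h ⊢
  simp only [h2 s a _ hs]
  simpa [sg] using cov_cond (ε := e) g (par_bose g hB) hf Finset.univ _ _ _ h

theorem rs_stress (g : Gr Q GrD.G) (r : Rs Q Q') {T : Ix → Ix → Fld D} (h : Q.IsStress T) :
    Q'.IsStress T where
  bose m n := r.bose ▸ h.bose m n
  symm := h.symm
  herm := h.herm
  cov m n s L a f v hs hL hf :=
    cov_two g r (h.bose m n) hs hL hf _ (h.cov m n s L a f v hs hL hf)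
  conserved := h.conserved
  charge F n B f v w hF hB := h.charge F n B f v w hF (r.fld ▸ hB)

theorem rs_stress0 (g : Gr Q GrD.G) (r : Rs Q Q') {T : Ix → Ix → Fld D} (h : Stress0 Q T) :
    Stress0 Q' T where
  bose m n := r.bose ▸ h.bose m n
  symm := h.symm
  herm := h.herm
  cov m n L a f v hL hf :=
    cov_two g r (h.bose m n) one_pos hL hf _ (h.cov m n L a f v hL hf)
  conserved := h.conserved
  charge F n B f v w hF hB := h.charge F n B f v w hF (r.fld ▸ hB)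

theorem rs_pch (r : Rs Q Q') {T : Ix → Ix → Fld D} (h : ND.PCh Q T A) : ND.PCh Q' T A :=
  fun F X B f v w hF hX hB => h F X B f v w hF hX (r.fld ▸ hB)

theorem rs_luvac (r : Rs Q Q') (h : L.UVac Q) : L.UVac Q' := fun z hz => by
  rw [rs_om r]
  exact h z fun a => rs_ue r one_pos a ▸ hz a

theorem rs_scl (r : Rs Q Q') {B : Fld D} {F : Finset (ℂ × ℕ)} {C : ℂ × ℕ → Fld D}
    (h : Scl Q B F C) : Scl Q' B F C := by
  refine ⟨fun p => ?_, fun s f v hs hf => ?_⟩
  · rw [r.fld, r.bose]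
    exact h.1 p
  · simp only [rs_one r hs]
    exact h.2 s f v hs hf

theorem rs_fsl (r : Rs Q Q') (h : FSL Q) : FSL Q' := fun B hB => by
  obtain ⟨F, C, h1⟩ := h B (r.fld ▸ hB)
  exact ⟨F, C, rs_scl r h1⟩

theorem rs_nolog (r : Rs Q Q') {T : Ix → Ix → Fld D} (h : NoLog Q T) : NoLog Q' T := fun m n => by
  obtain ⟨F, C, h1, h2⟩ := h m n
  exact ⟨F, C, rs_scl r h1, h2⟩

/-- the derivative hypothesis of `LNg` and of `RepZ` -/
def Der (Q : Theory D) (A : (V → V) → D → D) : Prop :=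
  ∀ (s : ℝ → ℝ) (L : ℝ → Ix → V) (a : ℝ → V) X v, s 0 = 1 → L 0 = GF.one → a 0 = 0 →
    (∀ e, 0 < s e ∧ IsLor (L e)) →
    (∀ n x, HasDerivAt (fun e => sim (s e) (L e) (a e) x n) (X x n) 0) →
    HasDerivAt (fun e => Q.U (s e) (L e) (a e) v) (Complex.I • A X v) 0

theorem Der.tendsto (h : Der Q A) {L : ℝ → Ix → V} {w : Ix → V} (h0 : L 0 = GF.one)
    (h1 : ∀ e, IsLor (L e)) (h2 : ∀ m n, HasDerivAt (fun e => L e m n) (w m n) 0) (v : D) :
    Tendsto (fun e => Q.U 1 (L e) 0 v) (𝓝 0) (𝓝 (Q.U 1 GF.one 0 v)) := by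
  have := (h (fun _ => 1) L (fun _ => 0) (fun x n => ∑ m, x m * w m n) v rfl h0 rfl
    (fun e => ⟨one_pos, h1 e⟩) fun n x => by
      simpa [sim] using HasDerivAt.fun_sum (u := Finset.univ)
        fun m _ => (h2 m n).const_mul (x m)).continuousAt.tendsto
  simpa only [h0] using this

/-- the sign of the re-signing is trivial near the identity -/
theorem exists_sign (g : Gr Q GrD.G) (r : Rs Q Q') {A' : (V → V) → D → D} (d : Der Q A)
    (d' : Der Q' A') : ∃ ε : (Ix → V) → Bool, ε GF.one = false ∧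
      (∀ s L a v, 0 < s → IsLor L →
        Q'.U s L a v = cond (ε L) (Gd (Q.U s L a v)) (Q.U s L a v)) ∧
      ∀ (L : ℝ → Ix → V) (w : Ix → V), L 0 = GF.one → (∀ e, IsLor (L e)) →
        (∀ m n, HasDerivAt (fun e => L e m n) (w m n) 0) → ∀ᶠ t in 𝓝 (0 : ℝ), ε (L t) = false := by
  classical
  by_cases hG : ∀ v : D, Gd v = v
  · refine ⟨fun _ => false, rfl, fun s L a v hs hL => ?_, fun _ _ _ _ _ => .of_forall fun _ => rfl⟩
    obtain ⟨e, -, h2⟩ := r.U L hL
    rw [h2 s a v hs, hG]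
    cases e <;> rfl
  obtain ⟨v0, hv⟩ := not_forall.1 hG
  choose e h1 h2 using r.U
  have h3 : ∀ s L a v, 0 < s → IsLor L → Q'.U s L a v =
      cond (if h : IsLor L then e L h else false) (Gd (Q.U s L a v)) (Q.U s L a v) :=
    fun s L a v hs hL => by rw [dif_pos hL, h2 L hL s a v hs]
  refine ⟨fun L => if h : IsLor L then e L h else false, ?_, h3, fun L w h0 hL hw => ?_⟩
  · exact (dif_pos H496.isLor_one).trans (h1 _ _ rfl)
  · by_contra hc
    have t1 := d'.tendsto h0 hL hw v0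
    have t2 := d.tendsto h0 hL hw (Gd v0)
    rw [rs_one r one_pos] at t1
    have := tendsto_nhds_unique_of_frequently_eq t1 t2 ((not_eventually.1 hc).mono fun t ht => by
      have ht' : (if h : IsLor (L t) then e (L t) h else false) = true :=
        Bool.eq_true_of_not_eq_false ht
      show Q'.U 1 (L t) 0 v0 = Q.U 1 (L t) 0 (Gd v0)
      rw [h3 1 _ 0 v0 one_pos (hL t), ht', g.GU 1 _ 0 v0 one_pos (hL t)]
      rfl)
    exact hv ((ueI Q one_pos H496.isLor_one 0).injective this).symm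

theorem sg_mul {n : ℕ} (x y z : Bool) {M P R : Matrix (Fin n) (Fin n) ℂ}
    (h : M = P * R ∨ M = -(P * R)) :
    sg x • M = sg y • P * sg z • R ∨ sg x • M = -(sg y • P * sg z • R) := by
  rcases h with rfl | rfl <;> cases x <;> cases y <;> cases z <;> simp [sg]

/-- the re-signed spin -/
def rp (k : Rp) (σ : (Ix → V) → Bool) (h0 : σ GF.one = false)
    (h : ∀ (L : ℝ → Ix → V) (w : Ix → V), L 0 = GF.one → (∀ e, IsLor (L e)) →
      (∀ m n, HasDerivAt (fun e => L e m n) (w m n) 0) → ∀ᶠ t in 𝓝 (0 : ℝ), σ (L t) = false) :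
    Rp where
  n := k.n
  ρ L := sg (σ L) • k.ρ L
  S := k.S
  id := by rw [h0, k.id]; simp [sg]
  mul L L' a b := sg_mul _ _ _ (k.mul L L' a b)
  der L w a b a0 a1 a2 := (k.der L w a b a0 a1 a2).congr_of_eventuallyEq
    ((h L w a0 a1 a2).mono fun t ht => by simp [ht, sg])

/-- multiplets with a parity pass to the re-signed theory -/
theorem rs_mf (g : Gr Q GrD.G) (r : Rs Q Q') {A' : (V → V) → D → D} (d : Der Q A)
    (d' : Der Q' A') {e : Bool} {k : Rp} {Φ : Fin k.n → Fld D} (h : IsMf Q k Φ)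
    (p : ∀ b, Par e (Φ b)) : ∃ (σ : (Ix → V) → Bool) (h0 : _) (h1 : _),
      IsMf Q' (rp k σ h0 h1) Φ := by
  obtain ⟨ε, h0, h1, h2⟩ := exists_sign g r d d'
  refine ⟨fun L => e && ε L, by simp [h0], fun L w a b c => (h2 L w a b c).mono fun t ht => by
    simp [ht], fun a => r.fld ▸ h.1 a, fun a L f v hL hf => ?_⟩
  simp only [h1 1 L 0 _ one_pos hL]
  exact cov_cond g (p a) hf Finset.univ _ _ _ (h.2 a L f v hL hf)

theorem tf_mf (h : TfGenZ Q) : MfAll Q := fun B hB => by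
  obtain ⟨n, C, h1, h2⟩ := h B hB
  refine ⟨n, C, fun i => ?_, h2⟩
  obtain ⟨e, k, Φ, a, h3, -, h4⟩ := h1 i
  exact ⟨k, Φ, a, h3, h4⟩

theorem rs_tf (g : Gr Q GrD.G) (r : Rs Q Q') {A' : (V → V) → D → D} (d : Der Q A)
    (d' : Der Q' A') (h : TfGenZ Q) : TfGenZ Q' := fun B hB => by
  obtain ⟨n, C, h1, h2⟩ := h B (r.fld ▸ hB)
  refine ⟨n, C, fun i => ?_, h2⟩
  obtain ⟨e, k, Φ, a, h3, h4, h5⟩ := h1 i
  obtain ⟨σ, a0, a1, h6⟩ := rs_mf g r d d' h3 h4
  exact ⟨e, rp k σ a0 a1, Φ, a, h6, h4, h5⟩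

/-- the parity split -/
theorem mf_tf {N : Set V → VonNeumannAlgebra (Completion D)} (hN : LNg Q GrD.G A (Gm D) N)
    (h : MfAll Q) : TfGenZ Q := fun B hB => by
  let c : EG.Cg D := ⟨Q, GrD.G, A, Gm D, N, hN⟩
  obtain ⟨n, p, h1⟩ := EG.H.md (c := c) (EG.e0_thm c) h B hB
  refine ⟨n, fun i => (p i).B, fun i => ?_, h1⟩
  obtain ⟨k, Φ, a, h2, h3⟩ := (p i).h
  exact ⟨_, k, Φ, a, h2.mf, h2.par, h3⟩

variable (D) in
/-- row TRF, with the derivative hypothesis for the re-signed theory -/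
def TRF' : Prop := ∀ (Q Q' : Theory D) A N, LNg Q GrD.G A (Gm D) N → Rs Q Q' → RepZ Q' A →
  (∀ T, Q.IsStress T → Q'.IsStress T) ∧ (∀ T, ND.PCh Q T A → ND.PCh Q' T A) ∧
    (UVac Q → UVac Q') ∧ (FSL Q → FSL Q') ∧ (MfAll Q → TfGenZ Q' ∧ MfAll Q')

theorem trf : TRF' D := fun Q Q' A N hN r R =>
  ⟨fun _ => rs_stress hN.toGr r, fun _ => rs_pch r, rs_luvac r, rs_fsl r, fun h =>
    have t := rs_tf hN.toGr r hN.der R.der (mf_tf hN h)
    ⟨t, tf_mf t⟩⟩

end Vale.Agent.P352G24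

end
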